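import Mathlib
import Vale.Agent.Results.P060.KneserGraphs

/-!
P060 (Hadwiger's conjecture), plain form of `P060.KneserGraphs`: Hadwiger's conjecture holds
for every Kneser graph.  No definition of ours occurs in the statement: the vertex type is the
subtype of `k`-element subsets of `{0, …, n-1}`, the graph is any simple graph on it whose
adjacency is: distinct and disjoint; the condition of having no `K_{t+1}` minor is written out (no `t + 1`
pairwise disjoint vertex sets, each inducing a connected subgraph, with an edge between any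
two of them).
-/

namespace Vale.Agent.Results.P060.KneserGraphsPlain

open Vale.Agent.Results.P060.KneserGraphs

/-- Hadwiger's conjecture for Kneser graphs: if the Kneser graph `K(n,k)` has no `K_{t+1}`
minor (`t ≥ 1`), then it is `t`-colourable. -/
theorem result (n k t : ℕ) (ht : 1 ≤ t)
    (G : SimpleGraph {S : Finset ℕ // S ⊆ Finset.range n ∧ S.card = k})
    (hG : ∀ S T, G.Adj S T ↔ S ≠ T ∧ Disjoint S.1 T.1)
    (hminor : ¬ ∃ B : Fin (t + 1) → Set {S : Finset ℕ // S ⊆ Finset.range n ∧ S.card = k},
      (∀ i, (G.induce (B i)).Connected) ∧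
      (∀ i j, i ≠ j → Disjoint (B i) (B j)) ∧
      (∀ i j, i ≠ j → ∃ a ∈ B i, ∃ b ∈ B j, G.Adj a b)) :
    G.Colorable t := by
  have hGk : G = kneser n k := by
    ext S T
    rw [hG]
    show S ≠ T ∧ Disjoint S.1 T.1 ↔ Disjoint S.1 T.1 ∧ S ≠ T
    exact and_comm
  subst hGk
  exact Vale.Agent.Results.P060.KneserGraphs.result n k t ht hminor

end Vale.Agent.Results.P060.KneserGraphsPlain
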